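import Mathlib

/-!
P061: finite loopless multigraphs, edge connectivity, spanning trees, thinness.
-/

namespace Vale.Agent.P061

/-- a loopless multigraph with vertex set `V` and set of edge copies `E`: every edge copy has two
different end vertices (their order plays no role) -/
structure MultiGraph (V E : Type) where
  src : E → V
  tgt : E → V
  loopless : ∀ e, src e ≠ tgt e

variable {V E : Type} [Fintype V] [DecidableEq V] [Fintype E]

/-- the edges in `F` with exactly one end vertex in `S` -/
def MultiGraph.cut (G : MultiGraph V E) (F : Finset E) (S : Finset V) : Finset E :=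
  F.filter fun e => ¬ (G.src e ∈ S ↔ G.tgt e ∈ S)

/-- `G` is `k`-edge-connected: every cut has at least `k` edges -/
def MultiGraph.EdgeConnected (G : MultiGraph V E) (k : ℕ) : Prop :=
  ∀ S : Finset V, S.Nonempty → S ≠ Finset.univ → k ≤ (G.cut Finset.univ S).card

/-- `T` is (the edge set of) a spanning tree: it connects all vertices, and `|T| = |V| - 1` -/
def MultiGraph.IsSpanningTree (G : MultiGraph V E) (T : Finset E) : Prop :=
  T.card + 1 = Fintype.card V ∧
    ∀ S : Finset V, S.Nonempty → S ≠ Finset.univ → (G.cut T S).Nonempty

/-- `T` is `α`-thin in `G` -/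
def MultiGraph.IsThin (G : MultiGraph V E) (α : ℝ) (T : Finset E) : Prop :=
  ∀ S : Finset V, S.Nonempty → S ≠ Finset.univ →
    ((G.cut T S).card : ℝ) ≤ α * (G.cut Finset.univ S).card

end Vale.Agent.P061
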