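import Mathlib
import Vale.Agent.Lib.P061.Defs

/-!
P061: in complete multigraphs every spanning tree has a cut in which it is dense.
-/

namespace Vale.Agent.P061

variable {V E : Type} [Fintype V] [DecidableEq V] [Fintype E]

/-- coboundary map modulo two -/
def dmap (G : MultiGraph V E) (T : Finset E) : (V → ZMod 2) →ₗ[ZMod 2] (T → ZMod 2) where
  toFun x e := x (G.src e) + x (G.tgt e)
  map_add' x y := by
    funext e
    simp only [Pi.add_apply]
    ring
  map_smul' c x := by
    funext e
    simp only [Pi.smul_apply, smul_eq_mul, RingHom.id_apply]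
    ring

omit [Fintype V] [DecidableEq V] [Fintype E] in
theorem dmap_apply (G : MultiGraph V E) (T : Finset E) (x : V → ZMod 2) (e : T) :
    dmap G T x e = x (G.src e) + x (G.tgt e) := rfl

theorem zmod2_cases (a : ZMod 2) : a = 0 ∨ a = 1 := by
  revert a
  decide

theorem zmod2_add {a b : ZMod 2} : a + b = 1 ↔ ¬ (a = 1 ↔ b = 1) := by
  revert a b
  decide

omit [Fintype E] in
theorem ker_const {G : MultiGraph V E} {T : Finset E} (hT : G.IsSpanningTree T) {x : V → ZMod 2}
    (hx : dmap G T x = 0) (v w : V) : x v = x w := by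
  by_contra hne
  have h1 : ∀ a b : ZMod 2, a ≠ b → (a = 1 ∧ b = 0) ∨ (a = 0 ∧ b = 1) := by decide
  have hS1 : (Finset.univ.filter fun u => x u = 1).Nonempty := by
    rcases h1 _ _ hne with h | h
    · exact ⟨v, by simp [h.1]⟩
    · exact ⟨w, by simp [h.2]⟩
  have hS2 : (Finset.univ.filter fun u => x u = 1) ≠ Finset.univ := by
    intro h
    rcases h1 _ _ hne with h' | h'
    · have : w ∈ (Finset.univ.filter fun u => x u = 1) := by
        rw [h]
        exact Finset.mem_univ w
      rw [Finset.mem_filter] at this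
      rw [this.2] at h'
      exact absurd h'.2 (by decide)
    · have : v ∈ (Finset.univ.filter fun u => x u = 1) := by
        rw [h]
        exact Finset.mem_univ v
      rw [Finset.mem_filter] at this
      rw [this.2] at h'
      exact absurd h'.1 (by decide)
  obtain ⟨e, he⟩ := hT.2 _ hS1 hS2
  rw [MultiGraph.cut, Finset.mem_filter] at he
  simp only [Finset.mem_filter, Finset.mem_univ, true_and] at he
  have h2 : dmap G T x ⟨e, he.1⟩ = 0 := by rw [hx]; rfl
  rw [dmap_apply] at h2
  have h3 := zmod2_add.2 he.2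
  rw [h3] at h2
  exact absurd h2 (by decide)

omit [Fintype E] in
/-- every spanning tree has a cut which contains all its edges -/
theorem exists_full_cut {G : MultiGraph V E} {T : Finset E} (hT : G.IsSpanningTree T) :
    ∃ S : Finset V, G.cut T S = T := by
  classical
  have hpos : 0 < Fintype.card V := by have := hT.1; omega
  obtain ⟨v0⟩ := Fintype.card_pos_iff.1 hpos
  have hker : Module.finrank (ZMod 2) (LinearMap.ker (dmap G T)) ≤ 1 := by
    refine finrank_le_one (⟨fun _ => 1, ?_⟩ : LinearMap.ker (dmap G T)) ?_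
    · rw [LinearMap.mem_ker]
      funext e
      rw [dmap_apply]
      have h11 : (1 : ZMod 2) + 1 = 0 := by decide
      exact h11
    · rintro ⟨x, hx⟩
      refine ⟨x v0, ?_⟩
      apply Subtype.ext
      funext w
      have h := ker_const hT (LinearMap.mem_ker.1 hx) v0 w
      simp only [SetLike.mk_smul_mk, Pi.smul_apply, smul_eq_mul, mul_one]
      exact h
  have hrk := LinearMap.finrank_range_add_finrank_ker (dmap G T)
  rw [Module.finrank_fintype_fun_eq_card] at hrk
  have hle := Submodule.finrank_le (LinearMap.range (dmap G T))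
  rw [Module.finrank_fintype_fun_eq_card, Fintype.card_coe] at hle
  have hrange : LinearMap.range (dmap G T) = ⊤ := by
    apply Submodule.eq_top_of_finrank_eq
    rw [Module.finrank_fintype_fun_eq_card, Fintype.card_coe]
    have := hT.1
    omega
  obtain ⟨x, hx⟩ := LinearMap.range_eq_top.1 hrange (fun _ => 1)
  refine ⟨Finset.univ.filter fun u => x u = 1, ?_⟩
  rw [MultiGraph.cut, Finset.filter_eq_self]
  intro e he
  have h1 : dmap G T x ⟨e, he⟩ = 1 := by rw [hx]
  rw [dmap_apply, zmod2_add] at h1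
  simpa using h1

/-- the complete graph on `Fin n` in which every edge has `2 m` copies -/
def completeMulti (n m : ℕ) :
    MultiGraph (Fin n) ({p : Fin n × Fin n // p.1 ≠ p.2} × Fin m) where
  src e := e.1.1.1
  tgt e := e.1.1.2
  loopless e := e.1.2

theorem card_cut_complete (n m : ℕ) (S : Finset (Fin n)) :
    ((completeMulti n m).cut Finset.univ S).card = m * (2 * (S.card * (n - S.card))) := by
  classical
  have hinj : Function.Injective (fun e : {p : Fin n × Fin n // p.1 ≠ p.2} × Fin m =>
      (e.1.1, e.2)) := by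
    rintro ⟨⟨p, hp⟩, i⟩ ⟨⟨q, hq⟩, j⟩ h
    simp only [Prod.mk.injEq] at h
    obtain ⟨rfl, rfl⟩ := h
    rfl
  rw [← Finset.card_image_of_injective _ hinj]
  have himg : ((completeMulti n m).cut Finset.univ S).image
      (fun e : {p : Fin n × Fin n // p.1 ≠ p.2} × Fin m => (e.1.1, e.2)) =
      ((S ×ˢ Sᶜ) ∪ (Sᶜ ×ˢ S)) ×ˢ (Finset.univ : Finset (Fin m)) := by
    have hmem : ∀ e : {p : Fin n × Fin n // p.1 ≠ p.2} × Fin m,
        e ∈ (completeMulti n m).cut Finset.univ S ↔ ¬ (e.1.1.1 ∈ S ↔ e.1.1.2 ∈ S) := by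
      intro e
      rw [MultiGraph.cut, Finset.mem_filter]
      exact ⟨fun h => h.2, fun h => ⟨Finset.mem_univ _, h⟩⟩
    ext ⟨⟨i, j⟩, c⟩
    rw [Finset.mem_image, Finset.mem_product, Finset.mem_union, Finset.mem_product,
      Finset.mem_product, Finset.mem_compl, Finset.mem_compl]
    constructor
    · rintro ⟨e, he, heq⟩
      rw [hmem] at he
      rw [Prod.mk.injEq] at heq
      rw [heq.1] at he
      refine ⟨?_, Finset.mem_univ _⟩
      dsimp only at he ⊢
      tauto
    · rintro ⟨h, -⟩
      dsimp only at h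
      have hne : i ≠ j := by
        rintro rfl
        tauto
      refine ⟨(⟨(i, j), hne⟩, c), (hmem _).2 ?_, rfl⟩
      dsimp only
      tauto
  have hdisj : Disjoint (S ×ˢ Sᶜ) (Sᶜ ×ˢ S) := by
    rw [Finset.disjoint_left]
    rintro ⟨i, j⟩ h1 h2
    rw [Finset.mem_product] at h1 h2
    exact (Finset.mem_compl.1 h2.1) h1.1
  rw [himg, Finset.card_product, Finset.card_univ, Fintype.card_fin,
    Finset.card_union_of_disjoint hdisj, Finset.card_product, Finset.card_product,
    Finset.card_compl, Fintype.card_fin]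
  ring

theorem mul_sub_ge {n s : ℕ} (h1 : 1 ≤ s) (h2 : s < n) : n - 1 ≤ s * (n - s) := by
  obtain ⟨d, rfl⟩ := Nat.exists_eq_add_of_lt h2
  have e1 : s + d + 1 - s = d + 1 := by omega
  rw [e1]
  obtain ⟨t, rfl⟩ : ∃ t, s = t + 1 := ⟨s - 1, by omega⟩
  have e2 : t + 1 + d + 1 - 1 = t + d + 1 := by omega
  rw [e2]
  nlinarith [Nat.zero_le (t * d)]

theorem edgeConnected_complete (n m : ℕ) {k : ℕ} (hk : k ≤ 2 * m * (n - 1)) :
    (completeMulti n m).EdgeConnected k := by
  intro S hS hS'
  rw [card_cut_complete]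
  have h1 : 1 ≤ S.card := hS.card_pos
  have h2 : S.card < n := by
    obtain ⟨v, hv⟩ : ∃ v, v ∉ S := by
      by_contra hcon
      push Not at hcon
      exact hS' (Finset.eq_univ_of_forall hcon)
    have h3 := Finset.card_lt_univ_of_notMem hv
    rwa [Fintype.card_fin] at h3
  have h3 := mul_sub_ge h1 h2
  calc k ≤ 2 * m * (n - 1) := hk
    _ ≤ 2 * m * (S.card * (n - S.card)) := Nat.mul_le_mul_left _ h3
    _ = m * (2 * (S.card * (n - S.card))) := by ring

/-- a thin spanning tree of the complete multigraph: `4 (n - 1) ≤ 2 α m n ^ 2` -/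
theorem thin_complete {n m : ℕ} (hn : 2 ≤ n) {α : ℝ} {T : Finset _}
    (hT : (completeMulti n m).IsSpanningTree T) (hα : (completeMulti n m).IsThin α T)
    (hα0 : 0 ≤ α) : 2 * ((n : ℝ) - 1) ≤ α * m * (n : ℝ) ^ 2 := by
  obtain ⟨S, hS⟩ := exists_full_cut hT
  have hTc : T.card = n - 1 := by
    have := hT.1
    rw [Fintype.card_fin] at this
    omega
  have hTne : T.Nonempty := by
    rw [← Finset.card_pos, hTc]
    omega
  obtain ⟨e, he⟩ := hTne
  rw [← hS, MultiGraph.cut, Finset.mem_filter] at he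
  have hS1 : S.Nonempty := by
    by_contra h
    rw [Finset.not_nonempty_iff_eq_empty] at h
    subst h
    exact he.2 (by simp)
  have hS2 : S ≠ Finset.univ := by
    rintro rfl
    exact he.2 (by simp)
  have h1 := hα S hS1 hS2
  rw [hS, hTc, card_cut_complete] at h1
  have hle : S.card ≤ n := by
    have := Finset.card_le_univ S
    rwa [Fintype.card_fin] at this
  have h2 : (((n - 1 : ℕ)) : ℝ) = (n : ℝ) - 1 := by
    rw [Nat.cast_sub (by omega)]
    simp
  have h3 : ((m * (2 * (S.card * (n - S.card))) : ℕ) : ℝ) =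
      m * (2 * (S.card * ((n : ℝ) - S.card))) := by
    rw [Nat.cast_mul, Nat.cast_mul, Nat.cast_mul, Nat.cast_sub hle]
    norm_num
  rw [h2, h3] at h1
  have h4 : (S.card : ℝ) * ((n : ℝ) - S.card) ≤ (n : ℝ) ^ 2 / 4 := by
    nlinarith [sq_nonneg ((n : ℝ) - 2 * S.card)]
  have h5 : α * (m * (2 * ((S.card : ℝ) * ((n : ℝ) - S.card)))) ≤
      α * (m * (2 * ((n : ℝ) ^ 2 / 4))) := by
    apply mul_le_mul_of_nonneg_left _ hα0
    apply mul_le_mul_of_nonneg_left _ (Nat.cast_nonneg m)
    linarith
  nlinarith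

end Vale.Agent.P061
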