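import Mathlib
import Vale.Agent.Lib.P061.Defs
import Vale.Agent.Lib.P061.Four

/-!
P061: for every `ε > 0` and every large `k` there are `k`-edge-connected multigraphs without
`(4 - ε) / k`-thin spanning tree.
-/

namespace Vale.Agent.P061

theorem exists_no_thin (ε : ℝ) (hε : 0 < ε) : ∃ k₀ : ℕ, ∀ k : ℕ, k₀ ≤ k →
    ∃ (n m : ℕ), 2 ≤ n ∧ (completeMulti n m).EdgeConnected k ∧
      ∀ T, (completeMulti n m).IsSpanningTree T → ¬ (completeMulti n m).IsThin ((4 - ε) / k) T := by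
  obtain ⟨N, hN⟩ := exists_nat_gt (16 / ε)
  obtain ⟨n, hn⟩ : ∃ n : ℕ, n = N + 2 := ⟨_, rfl⟩
  have hNn : (16 : ℝ) / ε < n := by
    rw [hn]
    push_cast
    linarith
  have hn2 : 2 ≤ n := by omega
  have hnR : (2 : ℝ) ≤ n := by exact_mod_cast hn2
  have hn0 : (0 : ℝ) < n := by linarith
  have hεn : 16 < ε * n := by
    rw [div_lt_iff₀ hε] at hNn
    linarith
  obtain ⟨k₁, hk₁⟩ := exists_nat_gt (16 * (n : ℝ) / ε)
  refine ⟨k₁ + 1, fun k hk => ?_⟩
  have hkR : 16 * (n : ℝ) / ε < k := hk₁.trans (by exact_mod_cast (by omega : k₁ < k))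
  have hk0 : (0 : ℝ) < k := by
    have : 0 < 16 * (n : ℝ) / ε := by positivity
    linarith
  have hεk : 16 * (n : ℝ) < ε * k := by
    rw [div_lt_iff₀ hε] at hkR
    linarith
  -- the multiplicity
  obtain ⟨m, hm⟩ : ∃ m : ℕ, m = k / (2 * (n - 1)) + 1 := ⟨_, rfl⟩
  have hd : 0 < 2 * (n - 1) := by omega
  have hdm : 2 * (n - 1) * (k / (2 * (n - 1))) + k % (2 * (n - 1)) = k := Nat.div_add_mod _ _
  have hmod : k % (2 * (n - 1)) < 2 * (n - 1) := Nat.mod_lt _ hd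
  have hm1 : k ≤ 2 * m * (n - 1) := by
    rw [hm]
    have e : 2 * (k / (2 * (n - 1)) + 1) * (n - 1) =
        2 * (n - 1) * (k / (2 * (n - 1))) + 2 * (n - 1) := by ring
    rw [e]
    omega
  have hm2 : 2 * m * (n - 1) ≤ k + 2 * (n - 1) := by
    rw [hm]
    have e : 2 * (k / (2 * (n - 1)) + 1) * (n - 1) =
        2 * (n - 1) * (k / (2 * (n - 1))) + 2 * (n - 1) := by ring
    rw [e]
    omega
  have hn1 : ((n - 1 : ℕ) : ℝ) = (n : ℝ) - 1 := by
    rw [Nat.cast_sub (by omega)]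
    simp
  have hm2R : 2 * (m : ℝ) * ((n : ℝ) - 1) ≤ k + 2 * ((n : ℝ) - 1) := by
    have : ((2 * m * (n - 1) : ℕ) : ℝ) ≤ ((k + 2 * (n - 1) : ℕ) : ℝ) := by exact_mod_cast hm2
    push_cast [hn1] at this
    linarith
  refine ⟨n, m, hn2, edgeConnected_complete n m hm1, fun T hT hthin => ?_⟩
  have hm0 : (0 : ℝ) ≤ m := Nat.cast_nonneg m
  rcases le_or_gt 0 ((4 - ε) / k) with hα | hα
  · have h1 := thin_complete hn2 hT hthin hα
    have h4 : 0 ≤ 4 - ε := by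
      by_contra hcon
      rw [not_le] at hcon
      have := div_neg_of_neg_of_pos hcon hk0
      linarith
    -- multiply by `k (n - 1)`
    have h2 : 2 * ((n : ℝ) - 1) * k ≤ (4 - ε) * m * (n : ℝ) ^ 2 := by
      have h3 := mul_le_mul_of_nonneg_right h1 hk0.le
      have e : (4 - ε) / k * m * (n : ℝ) ^ 2 * k = (4 - ε) * m * (n : ℝ) ^ 2 := by
        field_simp
      rw [e] at h3
      exact h3
    have h5 : 4 * ((n : ℝ) - 1) ^ 2 * k ≤ (4 - ε) * (n : ℝ) ^ 2 * (k + 2 * ((n : ℝ) - 1)) := by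
      have h6 := mul_le_mul_of_nonneg_right h2 (show (0 : ℝ) ≤ 2 * ((n : ℝ) - 1) by linarith)
      have h7 : (4 - ε) * (n : ℝ) ^ 2 * (2 * m * ((n : ℝ) - 1)) ≤
          (4 - ε) * (n : ℝ) ^ 2 * (k + 2 * ((n : ℝ) - 1)) :=
        mul_le_mul_of_nonneg_left hm2R (by positivity)
      calc 4 * ((n : ℝ) - 1) ^ 2 * k = 2 * ((n : ℝ) - 1) * k * (2 * ((n : ℝ) - 1)) := by ring
        _ ≤ (4 - ε) * m * (n : ℝ) ^ 2 * (2 * ((n : ℝ) - 1)) := h6
        _ = (4 - ε) * (n : ℝ) ^ 2 * (2 * m * ((n : ℝ) - 1)) := by ring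
        _ ≤ _ := h7
    -- `8 n k < ε n ^ 2 k / 2` and `8 n ^ 3 < ε n ^ 2 k / 2`
    have h8 : 8 * (n : ℝ) * k < ε * (n : ℝ) ^ 2 * k / 2 := by
      have : 16 * ((n : ℝ) * k) < ε * n * ((n : ℝ) * k) :=
        mul_lt_mul_of_pos_right hεn (by positivity)
      nlinarith
    have h9 : 8 * (n : ℝ) ^ 3 < ε * (n : ℝ) ^ 2 * k / 2 := by
      have : 16 * (n : ℝ) * (n : ℝ) ^ 2 < ε * k * (n : ℝ) ^ 2 :=
        mul_lt_mul_of_pos_right hεk (by positivity)
      nlinarith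
    have h10 : (4 - ε) * (n : ℝ) ^ 2 * (2 * ((n : ℝ) - 1)) ≤ 8 * (n : ℝ) ^ 3 := by
      have a1 : (4 - ε) * ((n : ℝ) ^ 2 * (2 * ((n : ℝ) - 1))) ≤
          4 * ((n : ℝ) ^ 2 * (2 * ((n : ℝ) - 1))) := by
        apply mul_le_mul_of_nonneg_right (by linarith)
        have : (0 : ℝ) ≤ (n : ℝ) - 1 := by linarith
        positivity
      nlinarith [sq_nonneg (n : ℝ)]
    nlinarith
  · -- a negative constant
    have hTc : T.card = n - 1 := by
      have := hT.1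
      rw [Fintype.card_fin] at this
      omega
    obtain ⟨v, hv⟩ : ∃ v : Fin n, v = ⟨0, by omega⟩ := ⟨_, rfl⟩
    have hS1 : ({v} : Finset (Fin n)).Nonempty := Finset.singleton_nonempty v
    have hS2 : ({v} : Finset (Fin n)) ≠ Finset.univ := by
      intro h
      have := congrArg Finset.card h
      rw [Finset.card_singleton, Finset.card_univ, Fintype.card_fin] at this
      omega
    have h1 := hthin _ hS1 hS2
    have h2 : 0 < (((completeMulti n m).cut T {v}).card : ℝ) := by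
      exact_mod_cast (hT.2 _ hS1 hS2).card_pos
    have h3 : (4 - ε) / k * (((completeMulti n m).cut Finset.univ {v}).card : ℝ) ≤ 0 :=
      mul_nonpos_of_nonpos_of_nonneg hα.le (Nat.cast_nonneg _)
    linarith

end Vale.Agent.P061
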